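import Vale.Agent.P251EJ76.Defs
import Vale.Agent.P251.F.LazWt
import Vale.Agent.P251.F.LazPoly

/-!
# P251EJ (13): the monoid map `MU ⟶ HQ` has the additive formal group law
-/

open CategoryTheory MonoidalCategory MonObj Limits Pretriangulated

set_option linter.unusedSectionVars false

universe u

noncomputable section

namespace Vale.Agent.P251EJ13

open Vale.Agent.P251 Vale.Agent.P251.S Vale.Agent.P251.T Vale.Agent.P251.M Vale.Agent.P251.F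
  Vale.Agent.P251.I EvenSpheres Vale.Agent.P257.H80 Vale.Agent.P221.H246 Vale.Agent.P251EJ
  Vale.Agent.P251EJ76

/-- the coefficient `a i j` has weight `i + j + 1` -/
theorem isWt_a (i j : ℕ) :
    Cob.IsWt ((i + j + 1 : ℕ) : ℤ) (MvPolynomial.C (Laz.a i j) : Cob Laz 0) := by
  intro B _ c u
  rw [Cob.ev_C, Cob.ev_C]
  change Laz.lift ((InvSeries.lin u)⁻¹ • Laz.univ.map c.pt) (Laz.a i j) = _
  have h1 : c.pt (Laz.a i j) = Laz.lift (Laz.univ.map c.pt) (Laz.a i j) := by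
    rw [Laz.lift_map_univ]
  rw [h1, Laz.lift_a, Laz.lift_a, zpow_natCast, Units.val_pow_eq_pow_val]
  exact coeff_e2_lin_inv_smul u _ (i := i + 1) (j := j + 1) (by ring)

theorem lift_addLaw_a (B : Type) [CommRing B] (i j : ℕ) :
    Laz.lift (F.addLaw B) (Laz.a i j) = 0 := by
  classical
  rw [Laz.lift_a, addLaw_ps, map_add, MvPowerSeries.coeff_X, MvPowerSeries.coeff_X, if_neg, if_neg,
    add_zero]
  · intro h
    have h1 := DFunLike.congr_fun h 0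
    simp at h1
  · intro h
    have h1 := DFunLike.congr_fun h 1
    simp at h1

variable {𝒯 : Type u} [Category.{0} 𝒯] [Preadditive 𝒯] [HasZeroObject 𝒯]
    [HasShift 𝒯 ℤ] [∀ n : ℤ, (shiftFunctor 𝒯 n).Additive] [Pretriangulated 𝒯] [IsTriangulated 𝒯]
    [MonoidalCategory 𝒯] [SymmetricCategory 𝒯] [TensorTriangulated 𝒯] [MonoidalClosed 𝒯]
    [HasCoproducts.{0} 𝒯] [HasProducts.{0} 𝒯] [StableCat 𝒯]

/-- over a monoid with homotopy in degree `0` the law is additive -/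
theorem lawOf_eq_addLaw {D : MUData 𝒯} {K : 𝒯} [MonObj K] [IsCommMonObj K]
    (h0 : ∀ k : ℤ, k ≠ 0 → ∀ g : (𝟙_ 𝒯)⟦k⟧ ⟶ K, g = 0) (k : D.R ⟶ K) [IsMonHom k] :
    lawOf k = F.addLaw _ := by
  apply Laz.lift_injective
  apply Laz.hom_ext
  intro i j
  rw [lift_addLaw_a, Vale.Agent.P221.H746.lift_lawOf]
  obtain ⟨a, ha⟩ := isHomog_evK k (isWt_a i j)
  have h1 : a = 0 := by
    rw [← cancel_epi (stdSph ((i + j + 1 : ℕ) : ℤ)).inv, comp_zero]
    exact h0 _ (by omega) _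
  rw [ha, h1]
  exact map_zero (DirectSum.of ((stdEven 𝒯).Gr K) _)

theorem cofIn_unit (D : MUData 𝒯) : CofIn (BigCell 𝒯 2) (η[D.R] : 𝟙_ 𝒯 ⟶ D.R) := by
  obtain ⟨J, ρ, δ, hT⟩ := distinguished_cocone_triangle (η[D.R] : 𝟙_ 𝒯 ⟶ D.R)
  exact ⟨J, ρ, δ, hT, D.conn J ρ δ hT⟩

theorem bigCell_mu (D : MUData 𝒯) : BigCell 𝒯 0 D.R := by
  obtain ⟨J, ρ, δ, hT, hJ⟩ := cofIn_unit D
  have h1 : BigCell 𝒯 0 (𝟙_ 𝒯) :=
    BigCell.of_iso ((shiftFunctorZero 𝒯 ℤ).app (𝟙_ 𝒯)) (BigCell.sphere 0 le_rfl)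
  exact BigCell.ext _ hT h1 (hJ.mono (by norm_num))

/-- the monoid map to a monoid with homotopy in degree `0` -/
theorem exists_monHom (D : MUData 𝒯) {K : 𝒯} [MonObj K]
    (h0 : ∀ k : ℤ, k ≠ 0 → ∀ g : (𝟙_ 𝒯)⟦k⟧ ⟶ K, g = 0) : ∃ k : D.R ⟶ K, IsMonHom k := by
  have hc := cofIn_unit D
  obtain ⟨k, hk⟩ := (X.bij_of_cofIn h0 hc).2 η[K]
  dsimp only at hk
  refine ⟨k, ⟨hk, ?_⟩⟩
  have h2 : CofIn (BigCell 𝒯 2) (η[D.R] ▷ D.R) :=
    CofIn.whiskerRight (P := BigCell 𝒯 2) (bigCell_extClosed 2) D.R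
      (fun X hX => (bigCell_mu D).tensor hX 2 (by norm_num)) hc
  apply (X.bij_of_cofIn h0 h2).1
  dsimp only
  rw [MonObj.one_mul_assoc, MonoidalCategory.tensorHom_def, Category.assoc,
    ← comp_whiskerRight_assoc, hk, ← whisker_exchange_assoc, MonObj.one_mul,
    leftUnitor_naturality]

variable (𝒯) in
/-- **row E2** -/
theorem muToQ : MUtoQ 𝒯 := by
  intro D K _ _ hK
  obtain ⟨k, hk⟩ := exists_monHom D hK.conc
  exact ⟨k, hk, lawOf_eq_addLaw hK.conc k⟩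

end Vale.Agent.P251EJ13
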