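import Vale.Agent.P251EJ.Defs
import Vale.Agent.P251.X.HQ
import Vale.Agent.P251.S.KosData

/-!
# P251EJ (13): the rational Hurewicz map has torsion kernel and cokernel
-/

open CategoryTheory MonoidalCategory MonObj Limits Pretriangulated

set_option linter.unusedSectionVars false

universe u

noncomputable section

namespace Vale.Agent.P251EJ13

open Vale.Agent.P251 Vale.Agent.P251.S Vale.Agent.P251.T Vale.Agent.P251.M Vale.Agent.P251.F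
  Vale.Agent.P251.I Vale.Agent.P251EJ

variable {𝒯 : Type u} [Category.{0} 𝒯] [Preadditive 𝒯] [HasZeroObject 𝒯]
    [HasShift 𝒯 ℤ] [∀ n : ℤ, (shiftFunctor 𝒯 n).Additive] [Pretriangulated 𝒯] [IsTriangulated 𝒯]
    [MonoidalCategory 𝒯] [SymmetricCategory 𝒯] [TensorTriangulated 𝒯] [MonoidalClosed 𝒯]
    [HasCoproducts.{0} 𝒯] [HasProducts.{0} 𝒯] [StableCat 𝒯]

/-- all the homotopy groups are torsion groups -/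
def Tors (X : 𝒯) : Prop := ∀ (k : ℤ) (f : (𝟙_ 𝒯)⟦k⟧ ⟶ X), ∃ m : ℤ, m ≠ 0 ∧ m • f = 0

theorem Tors.of_iso {X Y : 𝒯} (e : X ≅ Y) (h : Tors X) : Tors Y := by
  intro k f
  obtain ⟨m, hm, h1⟩ := h k (f ≫ e.inv)
  refine ⟨m, hm, ?_⟩
  rw [← cancel_mono e.inv, Preadditive.zsmul_comp, h1, zero_comp]

theorem Tors.shift {X : 𝒯} (h : Tors X) (n : ℤ) : Tors (X⟦n⟧) := by
  intro k f
  have e : (𝟙_ 𝒯)⟦k⟧ ≅ (((𝟙_ 𝒯)⟦k - n⟧))⟦n⟧ :=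
    (shiftFunctorAdd' 𝒯 (k - n) n k (by ring)).app (𝟙_ 𝒯)
  obtain ⟨g, hg⟩ := (shiftFunctor 𝒯 n).map_surjective (e.inv ≫ f)
  obtain ⟨m, hm, h1⟩ := h (k - n) g
  refine ⟨m, hm, ?_⟩
  rw [← cancel_epi e.inv, Preadditive.comp_zsmul, ← hg, ← Functor.map_zsmul, h1,
    Functor.map_zero, comp_zero]

theorem Tors.ext (Δ : Triangle 𝒯) (hΔ : Δ ∈ distTriang 𝒯) (h₁ : Tors Δ.obj₁) (h₃ : Tors Δ.obj₃) :
    Tors Δ.obj₂ := by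
  intro k f
  obtain ⟨m, hm, h1⟩ := h₃ k (f ≫ Δ.mor₂)
  obtain ⟨g, hg⟩ := Triangle.coyoneda_exact₂ Δ hΔ (m • f) (by rw [Preadditive.zsmul_comp, h1])
  obtain ⟨m', hm', h2⟩ := h₁ k g
  refine ⟨m' * m, mul_ne_zero hm' hm, ?_⟩
  rw [mul_smul, hg, ← Preadditive.zsmul_comp, h2, zero_comp]

theorem Tors.coprod {I : Type} (X : I → 𝒯) (h : ∀ i, Tors (X i)) : Tors (∐ X) := by
  intro k f
  obtain ⟨s, g, rfl⟩ := exists_sum_of_compact X f (StableCat.compact k X f)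
  choose m hm h1 using fun i : s => h i k (g i)
  refine ⟨∏ i, m i, Finset.prod_ne_zero_iff.2 fun i _ => hm i, ?_⟩
  rw [Finset.smul_sum]
  refine Finset.sum_eq_zero fun i _ => ?_
  classical
  rw [← Finset.prod_erase_mul _ _ (Finset.mem_univ i), mul_smul, ← Preadditive.zsmul_comp, h1,
    zero_comp, smul_zero]

theorem Tors.tensor {C X : 𝒯} {n : ℤ} (h : Tors C) (hX : BigCell 𝒯 n X) : Tors (C ⊗ X) := by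
  induction hX with
  | sphere k _ => exact (h.shift k).of_iso (tensorUnitShiftIso C k).symm
  | coprod Y _ ih =>
    exact (Tors.coprod _ ih).of_iso (PreservesCoproduct.iso (tensorLeft C) Y).symm
  | ext Δ hΔ _ _ ih₁ ih₃ =>
    exact Tors.ext _ (TensorTriangulated.distinguished C Δ hΔ) ih₁ ih₃

/-- the properties of the rational Eilenberg-Mac Lane monoid -/
structure HQ (K : 𝒯) [MonObj K] : Prop where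
  conc : ∀ k : ℤ, k ≠ 0 → ∀ g : (𝟙_ 𝒯)⟦k⟧ ⟶ K, g = 0
  ne : η[K] ≠ 0
  div : ∀ m : ℤ, m ≠ 0 → Function.Bijective (fun f : 𝟙_ 𝒯 ⟶ K => m • f)
  gen : ∀ f : 𝟙_ 𝒯 ⟶ K, ∃ a m : ℤ, m ≠ 0 ∧ m • f = a • η[K]

theorem exists_hq (F : SpaceFunctor 𝒯) :
    ∃ (K : 𝒯) (_ : MonObj K) (_ : IsCommMonObj K), HQ K := by
  obtain ⟨K, i1, i2, h1, h2, h3, h4⟩ := X.exists_HQ F
  exact ⟨K, i1, i2, ⟨h1, h2, h3, h4⟩⟩

section hq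

variable {K : 𝒯} [MonObj K]

/-- the kernel of `π_* 𝟙 → π_* K` is torsion -/
theorem unit_ker (F : SpaceFunctor 𝒯) (hS : Serre 𝒯) (hK : HQ K) (k : ℤ)
    (f : (𝟙_ 𝒯)⟦k⟧ ⟶ 𝟙_ 𝒯) (hf : f ≫ η[K] = 0) : ∃ m : ℤ, m ≠ 0 ∧ m • f = 0 := by
  rcases lt_trichotomy k 0 with h | h | h
  · exact ⟨1, one_ne_zero, by rw [unit_conn F k h f, smul_zero]⟩
  · subst h
    let ε : (𝟙_ 𝒯)⟦(0 : ℤ)⟧ ≅ 𝟙_ 𝒯 := (shiftFunctorZero 𝒯 ℤ).app (𝟙_ 𝒯)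
    obtain ⟨a, ha⟩ := exists_int_unit F (ε.inv ≫ f)
    by_cases h0 : a = 0
    · refine ⟨1, one_ne_zero, ?_⟩
      rw [one_smul, ← cancel_epi ε.inv, ha, h0, zero_smul, comp_zero]
    · exfalso
      apply hK.ne
      apply (hK.div a h0).1
      have h1 : (ε.inv ≫ f) ≫ η[K] = 0 := by rw [Category.assoc, hf, comp_zero]
      rw [ha, Preadditive.zsmul_comp, Category.id_comp] at h1
      dsimp only
      rw [h1, smul_zero]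
  · exact hS k h f

/-- the cokernel of `π_* 𝟙 → π_* K` is torsion -/
theorem unit_coker (hK : HQ K) (k : ℤ) (g : (𝟙_ 𝒯)⟦k⟧ ⟶ K) :
    ∃ (m : ℤ) (f : (𝟙_ 𝒯)⟦k⟧ ⟶ 𝟙_ 𝒯), m ≠ 0 ∧ m • g = f ≫ η[K] := by
  by_cases h : k = 0
  · subst h
    let ε : (𝟙_ 𝒯)⟦(0 : ℤ)⟧ ≅ 𝟙_ 𝒯 := (shiftFunctorZero 𝒯 ℤ).app (𝟙_ 𝒯)
    obtain ⟨a, m, hm, h1⟩ := hK.gen (ε.inv ≫ g)
    refine ⟨m, a • ε.hom, hm, ?_⟩
    rw [← cancel_epi ε.inv, Preadditive.comp_zsmul, h1, Preadditive.zsmul_comp,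
      Preadditive.comp_zsmul, Iso.inv_hom_id_assoc]
  · exact ⟨1, 0, one_ne_zero, by rw [hK.conc k h g, smul_zero, zero_comp]⟩

/-- the fibre of the unit has torsion homotopy groups -/
theorem tors_fib (F : SpaceFunctor 𝒯) (hS : Serre 𝒯) (hK : HQ K) {C : 𝒯} {i : C ⟶ 𝟙_ 𝒯}
    {δ : K ⟶ C⟦(1 : ℤ)⟧} (hT : Triangle.mk i η[K] δ ∈ distTriang 𝒯) : Tors C := by
  intro k f
  have h12 : i ≫ η[K] = 0 := comp_distTriang_mor_zero₁₂ _ hT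
  have h23 : η[K] ≫ δ = 0 := comp_distTriang_mor_zero₂₃ _ hT
  obtain ⟨m, hm, h1⟩ := unit_ker F hS hK k (f ≫ i) (by rw [Category.assoc, h12, comp_zero])
  have e : (𝟙_ 𝒯)⟦k + 1⟧ ≅ ((𝟙_ 𝒯)⟦k⟧)⟦(1 : ℤ)⟧ := (shiftFunctorAdd' 𝒯 k 1 (k + 1) rfl).app _
  obtain ⟨g, hg⟩ := Vale.Agent.P221.H746.exact₁ hT (e.hom ≫ (m • f)⟦(1 : ℤ)⟧') (by
    rw [Category.assoc, ← Functor.map_comp, Preadditive.zsmul_comp, h1, Functor.map_zero,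
      comp_zero])
  obtain ⟨m', g', hm', h2⟩ := unit_coker hK (k + 1) g
  refine ⟨m' * m, mul_ne_zero hm' hm, ?_⟩
  apply (shiftFunctor 𝒯 (1 : ℤ)).map_injective
  rw [← cancel_epi e.hom, mul_smul, Functor.map_zsmul, Preadditive.comp_zsmul, hg,
    ← Preadditive.zsmul_comp, h2, Category.assoc, h23, Functor.map_zero, comp_zero, comp_zero]

/-- **the kernel of `π_* X → π_*(K ⊗ X)` is torsion** -/
theorem rat_ker (F : SpaceFunctor 𝒯) (hS : Serre 𝒯) (hK : HQ K) {X : 𝒯} {n : ℤ}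
    (hX : BigCell 𝒯 n X) (k : ℤ) (f : (𝟙_ 𝒯)⟦k⟧ ⟶ X) (hf : f ≫ (λ_ X).inv ≫ (η[K] ▷ X) = 0) :
    ∃ m : ℤ, m ≠ 0 ∧ m • f = 0 := by
  obtain ⟨C, i, δ, hT⟩ := distinguished_cocone_triangle₁ (η[K] : 𝟙_ 𝒯 ⟶ K)
  have h0 : (f ≫ (λ_ X).inv) ≫ (η[K] ▷ X) = 0 := by rw [Category.assoc]; exact hf
  obtain ⟨g, hg⟩ : ∃ g : (𝟙_ 𝒯)⟦k⟧ ⟶ C ⊗ X, f ≫ (λ_ X).inv = g ≫ (i ▷ X) :=
    Triangle.coyoneda_exact₂ _ (tensR_dist X hT) _ h0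
  obtain ⟨m, hm, h1⟩ := (tors_fib F hS hK hT).tensor hX k g
  refine ⟨m, hm, ?_⟩
  rw [← cancel_mono (λ_ X).inv, Preadditive.zsmul_comp, hg, zero_comp, ← Preadditive.zsmul_comp,
    h1, zero_comp]

/-- **the cokernel of `π_* X → π_*(K ⊗ X)` is torsion** -/
theorem rat_coker (F : SpaceFunctor 𝒯) (hS : Serre 𝒯) (hK : HQ K) {X : 𝒯} {n : ℤ}
    (hX : BigCell 𝒯 n X) (k : ℤ) (g : (𝟙_ 𝒯)⟦k⟧ ⟶ K ⊗ X) :
    ∃ (m : ℤ) (f : (𝟙_ 𝒯)⟦k⟧ ⟶ X), m ≠ 0 ∧ m • g = f ≫ (λ_ X).inv ≫ (η[K] ▷ X) := by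
  obtain ⟨C, i, δ, hT⟩ := distinguished_cocone_triangle₁ (η[K] : 𝟙_ 𝒯 ⟶ K)
  have hT' := tensR_dist X hT
  obtain ⟨m, hm, h1⟩ := ((tors_fib F hS hK hT).tensor hX).shift 1 k (g ≫ tensRδ δ X)
  have h0 : (m • g) ≫ tensRδ δ X = 0 := by rw [Preadditive.zsmul_comp]; exact h1
  obtain ⟨f, hf⟩ : ∃ f : (𝟙_ 𝒯)⟦k⟧ ⟶ 𝟙_ 𝒯 ⊗ X, m • g = f ≫ (η[K] ▷ X) :=
    Triangle.coyoneda_exact₃ _ hT' _ h0
  refine ⟨m, f ≫ (λ_ X).hom, hm, ?_⟩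
  rw [Category.assoc, Iso.hom_inv_id_assoc]
  exact hf

end hq

end Vale.Agent.P251EJ13
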