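import Vale.Agent.P251EJ13.Rat
import Vale.Agent.P251EJ13.MUtoQ

/-!
# P251EJ (13): `π_{2*} MU` is rationally generated by the coefficients of its formal group law
-/

open CategoryTheory MonoidalCategory MonObj Limits Pretriangulated

set_option linter.unusedSectionVars false

universe u

noncomputable section

namespace Vale.Agent.P251EJ13

open Vale.Agent.P251 Vale.Agent.P251.S Vale.Agent.P251.T Vale.Agent.P251.M Vale.Agent.P251.F
  Vale.Agent.P251.I EvenSpheres Vale.Agent.P257.H80 Vale.Agent.P221.H246 Vale.Agent.P251EJ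
  Vale.Agent.P221.H746

section alg

variable {S : Type} [CommRing S]

/-- the elements with a nonzero multiple in the image of `φ` -/
def sat {A : Type} [CommRing A] (φ : A →+* S) : Subring S where
  carrier := {y | ∃ (m : ℤ) (z : A), m ≠ 0 ∧ (m : S) * y = φ z}
  zero_mem' := ⟨1, 0, one_ne_zero, by simp⟩
  one_mem' := ⟨1, 1, one_ne_zero, by simp⟩
  add_mem' := by
    rintro x y ⟨m, z, hm, h⟩ ⟨m', z', hm', h'⟩
    refine ⟨m * m', (m' : A) * z + (m : A) * z', mul_ne_zero hm hm', ?_⟩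
    rw [map_add, map_mul, map_mul, map_intCast, map_intCast, ← h, ← h']
    push_cast
    ring
  mul_mem' := by
    rintro x y ⟨m, z, hm, h⟩ ⟨m', z', hm', h'⟩
    refine ⟨m * m', z * z', mul_ne_zero hm hm', ?_⟩
    rw [map_mul, ← h, ← h']
    push_cast
    ring
  neg_mem' := by
    rintro x ⟨m, z, hm, h⟩
    exact ⟨m, -z, hm, by rw [map_neg, ← h, mul_neg]⟩

theorem mem_sat_of_mul {A : Type} [CommRing A] (φ : A →+* S) {m : ℤ} (hm : m ≠ 0) {y : S}
    (h : (m : S) * y ∈ sat φ) : y ∈ sat φ := by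
  obtain ⟨m', z, hm', h'⟩ := h
  refine ⟨m' * m, z, mul_ne_zero hm' hm, ?_⟩
  rw [← h']
  push_cast
  ring

/-- the coefficients of the exponential are rational polynomials in the coefficients of the law -/
theorem coeff_mem_sat (b : ℕ → S) (n : ℕ) :
    b n ∈ sat (Laz.lift (strictMk b • F.addLaw S)) := by
  induction n using Nat.strong_induction_on with
  | _ n ih =>
    have h1 : Subring.closure (b '' {k | k < n}) ≤ sat (Laz.lift (strictMk b • F.addLaw S)) := by
      rw [Subring.closure_le]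
      rintro _ ⟨k, hk, rfl⟩
      exact ih k hk
    have h2 := h1 (xC_strictMk_smul b n)
    have h3 : xC (strictMk b • F.addLaw S) n ∈ sat (Laz.lift (strictMk b • F.addLaw S)) := by
      refine ⟨1, Laz.x n, one_ne_zero, ?_⟩
      rw [Laz.x, map_xC, Laz.univ_map_lift, Int.cast_one, _root_.one_mul]
    have h4 := sub_mem h3 h2
    rw [sub_sub_cancel, nsmul_eq_mul] at h4
    refine mem_sat_of_mul _ (m := (dC (n + 2) : ℤ)) ?_ (by rw [Int.cast_natCast]; exact h4)
    exact_mod_cast dC_pos.ne'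

end alg

variable {𝒯 : Type u} [Category.{0} 𝒯] [Preadditive 𝒯] [HasZeroObject 𝒯]
    [HasShift 𝒯 ℤ] [∀ n : ℤ, (shiftFunctor 𝒯 n).Additive] [Pretriangulated 𝒯] [IsTriangulated 𝒯]
    [MonoidalCategory 𝒯] [SymmetricCategory 𝒯] [TensorTriangulated 𝒯] [MonoidalClosed 𝒯]
    [HasCoproducts.{0} 𝒯] [HasProducts.{0} 𝒯] [StableCat 𝒯]

section hq

variable {K : 𝒯} [MonObj K] [IsCommMonObj K]

theorem of_zero' (X : 𝒯) (w : ℤ) : HRing.of (stdEven 𝒯) X w 0 = 0 :=
  map_zero (DirectSum.of ((stdEven 𝒯).Gr X) w)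

/-- `π_{2*} K` consists of rational numbers -/
theorem hq_rat (hK : HQ K) (y : HRing (stdEven 𝒯) K) : y ∈ sat (Int.castRingHom _) := by
  induction y using DirectSum.induction_on with
  | zero => exact zero_mem _
  | add x y hx hy => exact add_mem hx hy
  | of w a =>
    change HRing.of (stdEven 𝒯) K w a ∈ _
    by_cases hw : w = 0
    · subst hw
      obtain ⟨c, m, hm, h⟩ := hK.gen ((stdEven 𝒯).zero.hom ≫ a)
      refine ⟨m, c, hm, ?_⟩
      have h1 : m • (a : (stdEven 𝒯).S 0 ⟶ K) = c • ((stdEven 𝒯).zero.inv ≫ η[K]) := by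
        rw [← Preadditive.comp_zsmul, ← h, Preadditive.comp_zsmul, Iso.inv_hom_id_assoc]
      rw [← of_zsmul', h1, of_zsmul', of_one, _root_.mul_one, eq_intCast]
    · have h1 : (a : (stdEven 𝒯).S w ⟶ K) = 0 := by
        rw [← cancel_epi (stdSph w).inv, comp_zero]
        exact hK.conc _ (by omega) _
      rw [h1, of_zero']
      exact zero_mem _

/-- the kernel of the rational Hurewicz homomorphism, ring form -/
theorem rat_ker_ring (F : SpaceFunctor 𝒯) (hS : Serre 𝒯) (hK : HQ K) {X : 𝒯} [MonObj X]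
    [IsCommMonObj X] {n : ℤ} (hX : BigCell 𝒯 n X) (y : HRing (stdEven 𝒯) X)
    (hy : HRing.map (E := stdEven 𝒯) (inrM K X) y = 0) :
    ∃ m : ℤ, m ≠ 0 ∧ (m : HRing (stdEven 𝒯) X) * y = 0 := by
  classical
  have h1 : ∀ w, ∃ m : ℤ, m ≠ 0 ∧ m • (y w : (stdEven 𝒯).S w ⟶ X) = 0 := by
    intro w
    have h2 : (y w : (stdEven 𝒯).S w ⟶ X) ≫ inrM K X = 0 := by
      have h3 : ∀ x : HRing (stdEven 𝒯) X, (HRing.map (E := stdEven 𝒯) (inrM K X) x) w =
          (x w : (stdEven 𝒯).S w ⟶ X) ≫ inrM K X := by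
        intro x
        induction x using DirectSum.induction_on with
        | zero =>
          rw [map_zero]
          change (0 : (stdEven 𝒯).S w ⟶ K ⊗ X) = (0 : (stdEven 𝒯).S w ⟶ X) ≫ inrM K X
          exact zero_comp.symm
        | add x x' hx hx' =>
          rw [map_add]
          exact (congrArg₂ (· + ·) hx hx').trans (Preadditive.add_comp ..).symm
        | of v a =>
          change (HRing.map (E := stdEven 𝒯) (inrM K X) (HRing.of (stdEven 𝒯) X v a)) w = _
          rw [HRing.map_of]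
          by_cases hv : v = w
          · subst hv
            exact (DirectSum.of_eq_same (β := (stdEven 𝒯).Gr (K ⊗ X)) _ _).trans
              (congrArg (· ≫ inrM K X) (DirectSum.of_eq_same (β := (stdEven 𝒯).Gr X) v a)).symm
          · refine (DirectSum.of_eq_of_ne (β := (stdEven 𝒯).Gr (K ⊗ X)) v w _
              (fun h => hv h.symm)).trans ?_
            rw [DirectSum.of_eq_of_ne (β := (stdEven 𝒯).Gr X) v w a (fun h => hv h.symm)]
            exact zero_comp.symm
      rw [← h3, hy]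
      rfl
    obtain ⟨m, hm, h4⟩ := rat_ker F hS hK hX (2 * w) ((stdSph w).inv ≫ y w) (by
      rw [Category.assoc]
      exact (congrArg ((stdSph w).inv ≫ ·) h2).trans comp_zero)
    refine ⟨m, hm, ?_⟩
    rw [← cancel_epi (stdSph w).inv, Preadditive.comp_zsmul, h4, comp_zero]
  choose m hm h2 using h1
  refine ⟨∏ w ∈ y.support, m w, Finset.prod_ne_zero_iff.2 fun w _ => hm w, ?_⟩
  rw [← zsmul_eq_mul]
  refine DFinsupp.ext fun w => ?_
  have h6 : ((∏ w ∈ y.support, m w) • y : HRing (stdEven 𝒯) X) w =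
      (∏ w ∈ y.support, m w) • (y w : (stdEven 𝒯).S w ⟶ X) := DFinsupp.zsmul_apply _ _ _
  rw [h6]
  change _ = (0 : (stdEven 𝒯).S w ⟶ X)
  by_cases hw : w ∈ y.support
  · rw [← Finset.prod_erase_mul _ _ hw, mul_smul, h2, smul_zero]
  · rw [DFinsupp.notMem_support_iff.1 hw]
    exact smul_zero _

end hq

variable {D : MUData 𝒯} {F : SpaceFunctor 𝒯} {e : F.S.obj CCF ≅ (stdEven 𝒯).L}

/-- **`Laz ⊗ ℚ → π_{2*} MU ⊗ ℚ` is onto** -/
theorem ratMU (hS : Serre 𝒯) (hD : MUUniv e D) (y : HRing (stdEven 𝒯) D.R) :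
    ∃ (m : ℤ) (z : Laz), m ≠ 0 ∧
      (m : HRing (stdEven 𝒯) D.R) * y = Laz.lift (lawOf (𝟙 D.R)) z := by
  obtain ⟨K, _, _, hK⟩ := exists_hq F
  obtain ⟨k, _⟩ := exists_monHom D hK.conc
  let b : ℕ → HRing (stdEven 𝒯) (K ⊗ D.R) :=
    fun i => (ser (k ≫ inlM K D.R) (inrM K D.R)).c (i + 1)
  have hlaw : strictMk b • P251.F.addLaw _ = lawOf (inrM K D.R) := by
    rw [← ser_smul (k ≫ inlM K D.R) (inrM K D.R), lawOf_comp, lawOf_eq_addLaw hK.conc k,
      map_addLaw, P251.F.strictMk_c (ser_strict _ _)]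
  have h1 : ∀ x, x ∈ sat (Laz.lift (lawOf (inrM K D.R))) := by
    intro x
    obtain ⟨f, rfl⟩ := (polyK_bijective hD k).2 x
    induction f using MvPolynomial.induction_on with
    | C a =>
      obtain ⟨m, c, hm, h⟩ := hq_rat hK a
      refine ⟨m, (c : Laz), hm, ?_⟩
      rw [MvPolynomial.eval₂Hom_C, map_intCast, ← map_intCast (HRing.map (E := stdEven 𝒯)
        (inlM K D.R)), ← map_mul, h, eq_intCast, map_intCast]
    | add f g hf hg =>
      rw [map_add]
      exact add_mem hf hg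
    | mul_X f i hf =>
      rw [map_mul, MvPolynomial.eval₂Hom_X']
      refine mul_mem hf ?_
      rw [← hlaw]
      exact coeff_mem_sat b i
  obtain ⟨m, z, hm, h⟩ := h1 (HRing.map (E := stdEven 𝒯) (inrM K D.R) y)
  obtain ⟨m', hm', h2⟩ := rat_ker_ring F hS hK (bigCell_mu D)
    ((m : HRing (stdEven 𝒯) D.R) * y - Laz.lift (lawOf (𝟙 D.R)) z) (by
      rw [map_sub, map_mul, map_intCast, h, Laz.map_lift, ← lawOf_comp,
        lawOf_congr (Category.id_comp _), sub_self])
  refine ⟨m' * m, (m' : Laz) * z, mul_ne_zero hm' hm, ?_⟩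
  rw [map_mul, map_intCast, ← sub_eq_zero, ← h2]
  push_cast
  ring

end Vale.Agent.P251EJ13
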